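import Crest.Agent.X262.St91.Nf
import Crest.Agent.X262.Nc29.Defs

/-!
# Row 262, G4 / START (helper91): the explicit example (found by helper29)

* `Dz`, `Dz.nf`   : a normal form from integral matrices; `Emp E` : the open conditions;
* `cert_of`       : `CertStmt` from the open conditions.
-/

set_option autoImplicit false

open MvPolynomial

noncomputable section

namespace Crest.Agent.X262.Ex91

open Crest.Agent.X262.St91
open Crest.Agent.X262.Pf19 (Om Skew NoLine NoConic cub)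
open Crest.Agent.X262.Mv99 (Qt)
open Crest.Agent.X262.Top (SmCub)
open Crest.Agent.X262.Nc29 (oz om skew)

/-- an integral matrix -/
def lz {ι κ : Type} (π : ι → κ → ℤ) : ι → κ → ℂ := fun i j => π i j

theorem ln_ln {ι κ μ : Type} [Fintype κ] [Fintype μ] (π : ι → κ → ℤ) (ρ : κ → μ → ℤ) (u : μ → ℂ)
    (i : ι) : ln (lz π) (ln (lz ρ) u) i = ∑ k, ((∑ j, π i j * ρ j k : ℤ) : ℂ) * u k := by
  simp only [ln, lz, Algebra.algebraMap_self, RingHom.id_apply, Finset.mul_sum, Int.cast_sum,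
    Int.cast_mul, Finset.sum_mul, mul_assoc]
  exact Finset.sum_comm

theorem ln_inv {ι κ : Type} [Fintype ι] [DecidableEq ι] [Fintype κ] {π : ι → κ → ℤ}
    {ρ : κ → ι → ℤ} (h : ∀ i k, ∑ j, π i j * ρ j k = if i = k then 1 else 0) (u : ι → ℂ) :
    ln (lz π) (ln (lz ρ) u) = u := funext fun i => by simp [ln_ln, h]

theorem cast_yz (u v : Fin 6 → ℤ) (r : Fin 10) :
    ((yz (Pf19.wd u v) r : ℤ) : ℂ) = yz (Pf19.wd (fun k => (u k : ℂ)) fun k => (v k : ℂ)) r := by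
  fin_cases r <;> simp [yz, Pf19.wd]

theorem wd_ln (g : Fin 6 → Fin 6 → ℂ) (u v : Fin 6 → ℂ) : Pf19.wd (ln g u) (ln g v) =
    ∑ i, ∑ j, (u i * v j) • Pf19.wd (fun k => g k i) fun k => g k j := by
  funext ⟨k, l⟩
  simp only [Pf19.wd, ln, Finset.sum_apply, Pi.smul_apply, smul_eq_mul, Finset.sum_mul_sum,
    Algebra.algebraMap_self, RingHom.id_apply, mul_sub, Finset.sum_sub_distrib]
  congr 1 <;> exact Finset.sum_congr rfl fun i _ => Finset.sum_congr rfl fun j _ => by ring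

/-- the identities between integral matrices -/
def Dz (o : Fin 6 → Fin 6 → Fin 6 → ℤ) (g g' : Fin 6 → Fin 6 → ℤ) (E : Fin 10 → Fin 4 → ℤ)
    (p : Fin 4 → Fin 10 → ℤ) (K : Fin 6 → Fin 10 → ℤ) (H : Fin 10 → Fin 6 → ℤ) : Prop :=
  (∀ i k, ∑ j, g i j * g' j k = if i = k then 1 else 0) ∧
  (∀ i k, ∑ j, g' i j * g j k = if i = k then 1 else 0) ∧
  (∀ i k, ∑ j, p i j * E j k = if i = k then 1 else 0) ∧ (∀ i k, ∑ j, K i j * E j k = 0) ∧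
  (∀ i k, 2 * ∑ j, E i j * p j k + ∑ j, H i j * K j k = if i = k then 2 else 0) ∧
  ∀ a i j, o a i j - o a j i = ∑ r, K a r * yz (Pf19.wd (fun k => g k i) fun k => g k j) r

/-- the open conditions -/
structure Emp (E : Fin 10 → Fin 4 → ℂ) : Prop where
  qt : Qt (gU (lr E X))
  nl : NoL (gU (lr E X))
  rk2 : ∀ x : Fin 4 → ℂ, x ≠ 0 → nn (ln E x) ≠ 0
  rk3 : ∀ t : Fin 2 → ℂ, t ≠ 0 → x4 (zm E t) ≠ 0

theorem eval_gU (E : Fin 10 → Fin 4 → ℂ) (x : Fin 4 → ℂ) :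
    eval x (gU (lr E X)) = gU (ln E x) := by
  simp [gU, dd, qq, nn, cr, zz, eval_lrX]

theorem hom_gU (E : Fin 10 → Fin 4 → ℂ) :
    (gU (lr E X) : MvPolynomial (Fin 4) ℂ).IsHomogeneous 4 := by
  have h : Hg 1 (lr E (X : Fin 4 → MvPolynomial (Fin 4) ℂ)) := hg_X.lr E
  have q : ∀ a b, (qq (nn (lr E X) a) (nn (lr E (X : Fin 4 → MvPolynomial (Fin 4) ℂ)) b)).IsHomogeneous
      4 := fun a b => (((h.nn a 0).mul (h.nn b 2)).add ((h.nn a 2).mul (h.nn b 0))).sub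
    (((h.nn a 1).mul (h.nn b 1)).C_mul 2)
  exact (((h 0).mul h.dd).add (q 1 1)).sub (q 0 2)

/-- the normal form -/
def Dz.nf {o : Fin 6 → Fin 6 → Fin 6 → ℤ} {g g' : Fin 6 → Fin 6 → ℤ} {E : Fin 10 → Fin 4 → ℤ}
    {p : Fin 4 → Fin 10 → ℤ} {K : Fin 6 → Fin 10 → ℤ} {H : Fin 10 → Fin 6 → ℤ}
    (h : Dz o g g' E p K H) (e : Emp (lz E)) : NF (omI fun a => lz (o a)) where
  g := lz g
  g' := lz g'
  gg' := ln_inv h.1
  g'g := ln_inv h.2.1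
  E := lz E
  p0 := lz p
  pE := ln_inv h.2.2.1
  w := w_of_mat (lz K) (fun i j => 2⁻¹ * lz H i j) (fun u v => funext fun a => by
      have h1 : ∀ i j, (o a i j : ℂ) - o a j i =
          lL (lz K) (yL (Pf19.wd (fun k => lz g k i) fun k => lz g k j)) a := fun i j => by
        have h2 := congrArg (Int.cast : ℤ → ℂ) (h.2.2.2.2.2 a i j)
        simp only [Int.cast_sub, Int.cast_sum, Int.cast_mul, cast_yz] at h2
        exact h2
      change _ = lL (lz K) (yL _) a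
      simp only [wd_ln, map_sum, map_smul, Finset.sum_apply, Pi.smul_apply, smul_eq_mul, ← h1]
      simp only [ln, omI, lz, Pf19.wd, Fintype.sum_prod_type, Algebra.algebraMap_self,
        RingHom.id_apply, mul_sub, Finset.sum_sub_distrib]
      congr 1
      · exact Finset.sum_congr rfl fun i _ => Finset.sum_congr rfl fun j _ => by ring
      · rw [Finset.sum_comm]
        exact Finset.sum_congr rfl fun i _ => Finset.sum_congr rfl fun j _ => by ring)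
    (fun x => funext fun i => by simp [ln_ln, h.2.2.2.1]) fun c => funext fun i => by
      have h1 : ln (fun i j => 2⁻¹ * lz H i j) (ln (lz K) c) i =
          2⁻¹ * ln (lz H) (ln (lz K) c) i := by
        simp only [ln, Finset.mul_sum, Algebra.algebraMap_self, RingHom.id_apply, mul_assoc]
      have h2 : ∀ k, ((∑ j, E i j * p j k : ℤ) : ℂ) * c k + 2⁻¹ * (((∑ j, H i j * K j k : ℤ) : ℂ) *
          c k) = if i = k then c k else 0 := fun k => by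
        have h3 := congrArg (Int.cast : ℤ → ℂ) (h.2.2.2.2.1 i k)
        rw [Int.cast_add, Int.cast_mul] at h3
        split_ifs at h3 ⊢ <;> simp only [Int.cast_ofNat, Int.cast_zero] at h3 <;>
          linear_combination 2⁻¹ * c k * h3
      rw [Pi.add_apply, h1, ln_ln, ln_ln, Finset.mul_sum, ← Finset.sum_add_distrib]
      simp only [h2]
      simp
  Γ := gU (lr (lz E) X)
  hΓ := eval_gU _
  qt := e.qt
  nl := e.nl
  rk2 := e.rk2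
  rk3 := e.rk3

/-- the six forms -/
def omZ (a i j : Fin 6) : ℤ := oz a i j

/-- the identity -/
def g1 : Fin 6 → Fin 6 → ℤ :=
  ![![1, 0, 0, 0, 0, 0], ![0, 1, 0, 0, 0, 0], ![0, 0, 1, 0, 0, 0], ![0, 0, 0, 1, 0, 0],
    ![0, 0, 0, 0, 1, 0], ![0, 0, 0, 0, 0, 1]]

/-- the change of coordinates -/
def gN : Fin 6 → Fin 6 → ℤ :=
  ![![-1, 1, 0, 1, -1, 0], ![0, -1, 0, 0, 0, 0], ![0, -1, -1, 0, -1, 0], ![-1, -1, 0, 0, 0, 0],
    ![0, -1, 0, 0, 1, 0], ![0, -1, 0, 0, -1, -1]]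

/-- its inverse -/
def gI : Fin 6 → Fin 6 → ℤ :=
  ![![0, 1, 0, -1, 0, 0], ![0, -1, 0, 0, 0, 0], ![0, 2, -1, 0, -1, 0], ![1, 1, 0, -1, 1, 0],
    ![0, -1, 0, 0, 1, 0], ![0, 2, 0, 0, -1, -1]]

/-- the first space -/
def eM : Fin 10 → Fin 4 → ℤ :=
  ![![1, 5, -2, -2], ![0, 1, 0, 1], ![-2, 2, 0, -1], ![-1, 0, 0, 2], ![0, 0, 2, -1], ![-3, 5, 0, 2],
    ![-2, 2, 0, -1], ![0, -1, 1, 0], ![-1, 4, 1, 0], ![0, 2, 0, 1]]

/-- the second space -/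
def eN : Fin 10 → Fin 4 → ℤ :=
  ![![1, 0, -1, -4], ![0, 1, 0, 1], ![-2, 1, 1, 0], ![1, -1, 0, 2], ![0, 3, 2, 0], ![-3, 0, 1, -2],
    ![0, 0, 0, 6], ![0, 2, 1, -1], ![-1, -2, -1, 2], ![-1, -1, 0, 3]]

/-- coordinates -/
def pM : Fin 4 → Fin 10 → ℤ :=
  ![![1, 7, 0, 0, 0, 0, 0, 2, 0, -5], ![0, -1, 0, 0, 0, 0, 0, 0, 0, 1],
    ![0, -1, 0, 0, 0, 0, 0, 1, 0, 1], ![0, 2, 0, 0, 0, 0, 0, 0, 0, -1]]

/-- equations -/
def kM : Fin 6 → Fin 10 → ℤ :=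
  ![![-9, 0, 0, 2, 0, -9, 0, -34, 16, -4], ![6, 0, -2, 0, 0, 6, 0, 20, -8, -2],
    ![-6, 0, 0, 0, 0, -6, 2, -20, 8, 2], ![14, 0, 0, 0, 0, 12, 0, 50, -22, 4],
    ![-1, 2, 0, 0, 0, -1, 0, -4, 2, -2], ![4, 0, 0, 0, 2, 4, 0, 12, -8, 2]]

/-- a complement -/
def hM : Fin 10 → Fin 6 → ℤ :=
  ![![0, 0, 0, 0, 0, 0], ![0, 0, 0, 0, 0, 0], ![0, -1, 0, 2, 18, 0], ![1, 0, 0, 1, 3, 0],
    ![0, 0, 0, 0, 4, 1], ![0, 0, 0, 2, 22, 0], ![0, 0, 1, 2, 18, 0], ![0, 0, 0, 0, 0, 0],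
    ![0, 0, 0, 1, 12, 0], ![0, 0, 0, 0, 0, 0]]

/-- coordinates -/
def pN : Fin 4 → Fin 10 → ℤ :=
  ![![0, 0, 0, 1, -1, 0, 0, 2, 0, 0], ![-2, 0, 0, 2, -7, 0, 0, 12, 0, 0],
    ![3, 0, 0, -3, 11, 0, 0, -18, 0, 0], ![-1, 0, 0, 1, -3, 0, 0, 5, 0, 0]]

/-- equations -/
def kN : Fin 6 → Fin 10 → ℤ :=
  ![![-1, -18, 18, 8, -18, -17, -6, 50, 16, 6], ![1, 10, -12, -6, 12, 9, 2, -28, -8, 0],
    ![-2, -12, 12, 4, -12, -10, -2, 28, 8, 0], ![2, 26, -26, -12, 26, 24, 8, -72, -24, -6],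
    ![0, 0, 2, 2, -2, -2, -2, 6, 2, 2], ![0, 10, -8, -2, 6, 8, 2, -20, -8, -2]]

/-- a complement -/
def hN : Fin 10 → Fin 6 → ℤ :=
  ![![0, 0, 0, 0, 0, 0], ![-3, -3, 0, 3, 8, -10], ![2, 0, -1, -1, -4, 5], ![0, 0, 0, 0, 0, 0],
    ![0, 0, 0, 0, 0, 0], ![6, 4, -2, -6, -16, 20], ![-4, -6, -1, 6, 12, -18], ![0, 0, 0, 0, 0, 0],
    ![-1, -1, -1, 0, 1, -2], ![1, -1, -1, 1, 0, -1]]

theorem dM : Dz omZ g1 g1 eM pM kM hM := by
  unfold Dz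
  decide +kernel

theorem dN : Dz omZ gN gI eN pN kN hN := by
  unfold Dz
  decide +kernel

/-- the conic -/
def Yc : Fin 4 → MvPolynomial (Fin 2) ℂ := ![X 0 * X 0, X 0 * X 1, X 1 * X 1, 0]

theorem hY (i : Fin 4) : (Yc i).IsHomogeneous 2 := by
  fin_cases i
  exacts [hg_aU 0, hg_aU 1, hg_aU 2, hg_aU 3]

theorem Y_ne (t : Fin 2 → ℂ) (ht : t ≠ 0) : cv Yc t ≠ 0 := fun h => ht (by
  have h0 := congrFun h 0
  have h1 := congrFun h 2
  simp [cv, Yc] at h0 h1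
  exact funext (Fin.forall_fin_two.2 ⟨h0, h1⟩))

theorem ln_g1 (u : Fin 6 → ℂ) : ln (lz g1) u = u := by
  funext i
  fin_cases i <;> simp [ln, lz, g1, Fin.sum_univ_six]

theorem img (p : Fin 4 → Fin 10 → ℤ) (g : Fin 6 → Fin 6 → ℤ) (h : p = pN ∧ g = gN ∨ p = pM ∧ g = gI)
    (t : Fin 2 → ℂ) : ln (lz p) (yz (Pf19.wd (ln (lz g) (aU t)) (ln (lz g) (aV t)))) =
      eval t (X 0 * X 1 : MvPolynomial (Fin 2) ℂ) • cv Yc t := by
  funext i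
  rcases h with ⟨rfl, rfl⟩ | ⟨rfl, rfl⟩ <;> fin_cases i <;>
    simp [ln, lz, pN, pM, gN, gI, Fin.sum_univ_succ, yz, Pf19.wd, aU, aV, cv, Yc] <;> ring

/-- **the example from the open conditions** -/
theorem cert_of (h1 : Emp (lz eM)) (h2 : Emp (lz eN)) (h3 : SmCub (cub om)) (h4 : NoLine ℂ om)
    (h5 : NoConic ℂ om) : CertStmt :=
  cert_of_nf (ω := om) skew h4 (M := dM.nf h1) (N := dN.nf h2) h3 h5
    ⟨Yc, hY, X 0 * X 1, mul_ne_zero (X_ne_zero 0) (X_ne_zero 1), fun t => by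
      refine (NF.πL_wd _ _ _).trans ?_
      change ln (lz pN) (yz (Pf19.wd (ln (lz gN) (ln (lz g1) _)) (ln (lz gN) (ln (lz g1) _)))) = _
      rw [ln_g1, ln_g1, img _ _ (Or.inl ⟨rfl, rfl⟩)], Y_ne⟩
    ⟨Yc, hY, X 0 * X 1, mul_ne_zero (X_ne_zero 0) (X_ne_zero 1), fun t => by
      refine (NF.πL_wd _ _ _).trans ?_
      change ln (lz pM) (yz (Pf19.wd (ln (lz g1) (ln (lz gI) _)) (ln (lz g1) (ln (lz gI) _)))) = _
      rw [ln_g1, ln_g1, img _ _ (Or.inr ⟨rfl, rfl⟩)], Y_ne⟩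
    ⟨![0, 0, 0, 1], by
      change dd (ln (lz eM) _) ≠ 0
      simp [dd, nn, cr, zz, ln, lz, eM, Fin.sum_univ_four]
      norm_num⟩

end Crest.Agent.X262.Ex91
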